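import Vale.Agent.P235.XC.H237.Mono
import Vale.Agent.P235.H427.Blk

/-!
P235, line XC (helper838): `(TX r, p)` is a rooted minor of `(TX (2 r + 1), k)` for every vertex `k`.
-/

set_option autoImplicit false

namespace Vale.Agent.P235.XC.H838

open SimpleGraph Vale.Agent.P235.H134 Vale.Agent.P235.XC Vale.Agent.P235.XC.H237
open Vale.Agent.P235.H750 (RMinor)

/-- a set is connected if every element except `c` has a smaller neighbour in the set -/
theorem conn_desc {V : Type} (G : SimpleGraph V) (S : Set V) (c : V) (hc : c ∈ S) (m : V → ℕ)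
    (h : ∀ u ∈ S, u ≠ c → ∃ w ∈ S, G.Adj u w ∧ m w < m u) : (G.induce S).Connected := by
  have key : ∀ n : ℕ, ∀ u, m u = n → ∀ hu : u ∈ S,
      (G.induce S).Reachable ⟨u, hu⟩ ⟨c, hc⟩ := by
    intro n
    induction n using Nat.strong_induction_on with
    | _ n ih =>
      intro u hn hu
      by_cases huc : u = c
      · subst huc
        exact Reachable.refl _
      · obtain ⟨w, hw, huw, hlt⟩ := h u hu huc
        have h1 : (G.induce S).Adj ⟨u, hu⟩ ⟨w, hw⟩ := huw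
        exact h1.reachable.trans (ih (m w) (hn ▸ hlt) w rfl hw)
  have : Nonempty S := ⟨⟨c, hc⟩⟩
  exact ⟨fun u v => (key _ u.1 rfl u.2).trans (key _ v.1 rfl v.2).symm⟩

/-- the branch sets: rows `a, …, a + r - 1`, columns `0, …, r - 1`; the vertex `p` takes all other
rows, the vertex `q` takes the other columns of these rows -/
def nu (r a s : ℕ) : Fin 2 ⊕ (Fin r × Fin r) → Set (Fin 2 ⊕ (Fin s × Fin s))
  | Sum.inl p => {v | v = Sum.inl p ∨ ∃ x : Fin s × Fin s, v = Sum.inr x ∧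
      ((p = 0 ∧ (x.1.val < a ∨ a + r ≤ x.1.val)) ∨
      (p = 1 ∧ a ≤ x.1.val ∧ x.1.val < a + r ∧ r ≤ x.2.val))}
  | Sum.inr c => {v | ∃ x : Fin s × Fin s, v = Sum.inr x ∧ x.1.val = a + c.1.val ∧
      x.2.val = c.2.val}

theorem nu_conn {r a s : ℕ} (has : a + r ≤ s) (hrs : r < s) (b : Fin 2 ⊕ (Fin r × Fin r)) :
    ((TX s).induce (nu r a s b)).Connected := by
  rcases b with p | c
  · have hm : ∀ p : Fin 2, p = 0 ∨ p = 1 := by decide
    rcases hm p with rfl | rfl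
    · refine conn_desc _ _ (Sum.inl 0) (Or.inl rfl) (fun v => match v with
        | Sum.inl _ => 0
        | Sum.inr x => if x.1.val < a then x.1.val + 1 else s - x.1.val) ?_
      rintro u (rfl | ⟨x, rfl, h⟩) hu
      · exact absurd rfl hu
      · have hx1 := x.1.2
        rcases h with ⟨-, h | h⟩ | ⟨h, -⟩
        · by_cases h0 : x.1.val = 0
          · refine ⟨Sum.inl 0, Or.inl rfl, (tx_0 (Or.inl h0)).symm, ?_⟩
            simp only [h, if_true]
            omega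
          · refine ⟨Sum.inr (⟨x.1.val - 1, by omega⟩, x.2), Or.inr ⟨_, rfl, Or.inl ⟨rfl, Or.inl ?_⟩⟩,
              tx_g ((grid_adj _ _).2 (Or.inl ⟨rfl, Or.inr ?_⟩)), ?_⟩
            · simp only
              omega
            · simp only
              omega
            · have h1 : x.1.val - 1 < a := by omega
              simp only [h, h1, if_true]
              omega
        · have h2 : ¬ x.1.val < a := by omega
          by_cases h0 : x.1.val + 1 = s
          · refine ⟨Sum.inl 0, Or.inl rfl, (tx_0 (Or.inr h0)).symm, ?_⟩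
            simp only [h2, if_false]
            omega
          · refine ⟨Sum.inr (⟨x.1.val + 1, by omega⟩, x.2), Or.inr ⟨_, rfl, Or.inl ⟨rfl, Or.inr ?_⟩⟩,
              tx_g ((grid_adj _ _).2 (Or.inl ⟨rfl, Or.inl ?_⟩)), ?_⟩
            · simp only
              omega
            · simp only
            · have h1 : ¬ x.1.val + 1 < a := by omega
              simp only [h2, h1, if_false]
              omega
        · exact absurd h (by decide)
    · refine conn_desc _ _ (Sum.inl 1) (Or.inl rfl) (fun v => match v with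
        | Sum.inl _ => 0
        | Sum.inr x => s - x.2.val) ?_
      rintro u (rfl | ⟨x, rfl, h⟩) hu
      · exact absurd rfl hu
      · have hx2 := x.2.2
        rcases h with ⟨h, -⟩ | ⟨-, h1, h2, h3⟩
        · exact absurd h (by decide)
        · by_cases h0 : x.2.val + 1 = s
          · refine ⟨Sum.inl 1, Or.inl rfl, (tx_1 (Or.inr h0)).symm, ?_⟩
            simp only
            omega
          · refine ⟨Sum.inr (x.1, ⟨x.2.val + 1, by omega⟩),
              Or.inr ⟨_, rfl, Or.inr ⟨rfl, h1, h2, ?_⟩⟩,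
              tx_g ((grid_adj _ _).2 (Or.inr ⟨rfl, Or.inl ?_⟩)), ?_⟩
            · simp only
              omega
            · simp only
            · simp only
              omega
  · have hc1 := c.1.2
    have hc2 := c.2.2
    refine conn_desc _ _ (Sum.inr (⟨a + c.1.val, by omega⟩, ⟨c.2.val, by omega⟩)) ⟨_, rfl, rfl, rfl⟩
      (fun _ => 0) ?_
    rintro u ⟨x, rfl, h1, h2⟩ hu
    exact absurd (congrArg Sum.inr (Prod.ext (Fin.ext h1) (Fin.ext h2))) hu

theorem nu_disj {r a s : ℕ} (b c : Fin 2 ⊕ (Fin r × Fin r)) (hbc : b ≠ c) :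
    Disjoint (nu r a s b) (nu r a s c) := by
  rw [Set.disjoint_left]
  intro v hva hvb
  rcases b with p | b <;> rcases c with q | c
  · rcases hva with h1 | ⟨x, h1, h2⟩ <;> rcases hvb with h3 | ⟨y, h3, h4⟩
    · exact hbc (congrArg Sum.inl (Sum.inl.inj (h1.symm.trans h3)))
    · exact absurd (h1.symm.trans h3) Sum.inl_ne_inr
    · exact absurd (h3.symm.trans h1) Sum.inl_ne_inr
    · obtain rfl : x = y := Sum.inr.inj (h1.symm.trans h3)
      apply hbc
      rcases h2 with ⟨rfl, h2⟩ | ⟨rfl, h2, h2', -⟩ <;> rcases h4 with ⟨rfl, h4⟩ | ⟨rfl, h4, h4', -⟩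
      · rfl
      · exfalso
        omega
      · exfalso
        omega
      · rfl
  · obtain ⟨y, h3, h4, h5⟩ := hvb
    have hc1 := c.1.2
    have hc2 := c.2.2
    rcases hva with h1 | ⟨x, h1, h2⟩
    · exact absurd (h1.symm.trans h3) Sum.inl_ne_inr
    · obtain rfl : x = y := Sum.inr.inj (h1.symm.trans h3)
      rcases h2 with ⟨-, h2⟩ | ⟨-, h2, h2', h6⟩ <;> omega
  · obtain ⟨y, h3, h4, h5⟩ := hva
    have hc1 := b.1.2
    have hc2 := b.2.2
    rcases hvb with h1 | ⟨x, h1, h2⟩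
    · exact absurd (h1.symm.trans h3) Sum.inl_ne_inr
    · obtain rfl : x = y := Sum.inr.inj (h1.symm.trans h3)
      rcases h2 with ⟨-, h2⟩ | ⟨-, h2, h2', h6⟩ <;> omega
  · obtain ⟨x, h1, h2, h3⟩ := hva
    obtain ⟨y, h4, h5, h6⟩ := hvb
    obtain rfl : x = y := Sum.inr.inj (h1.symm.trans h4)
    exact hbc (congrArg Sum.inr (Prod.ext (Fin.ext (by omega)) (Fin.ext (by omega))))

theorem nu_edge {r a s : ℕ} (has : a + r ≤ s) (hrs : r < s) {b c : Fin 2 ⊕ (Fin r × Fin r)}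
    (h : (∃ x : Fin r × Fin r, (x.1.val = 0 ∨ x.1.val + 1 = r) ∧ b = Sum.inl 0 ∧ c = Sum.inr x) ∨
    (∃ x : Fin r × Fin r, (x.2.val = 0 ∨ x.2.val + 1 = r) ∧ b = Sum.inl 1 ∧ c = Sum.inr x) ∨
    ∃ x y : Fin r × Fin r, (grid r).Adj x y ∧ b = Sum.inr x ∧ c = Sum.inr y) :
    ∃ x ∈ nu r a s b, ∃ y ∈ nu r a s c, (TX s).Adj x y := by
  rcases h with ⟨x, hx, rfl, rfl⟩ | ⟨x, hx, rfl, rfl⟩ | ⟨x, y, hxy, rfl, rfl⟩
  · have h1 := x.1.2
    have h2 := x.2.2
    have hy : (Sum.inr ((⟨a + x.1.val, by omega⟩, ⟨x.2.val, by omega⟩) : Fin s × Fin s) :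
        Fin 2 ⊕ (Fin s × Fin s)) ∈ nu r a s (Sum.inr x) := ⟨_, rfl, rfl, rfl⟩
    rcases hx with hx | hx
    · by_cases ha : a = 0
      · refine ⟨Sum.inl 0, Or.inl rfl, _, hy, tx_0 (Or.inl ?_)⟩
        simp only
        omega
      · refine ⟨Sum.inr (⟨a - 1, by omega⟩, ⟨x.2.val, by omega⟩),
          Or.inr ⟨_, rfl, Or.inl ⟨rfl, Or.inl ?_⟩⟩, _, hy,
          tx_g ((grid_adj _ _).2 (Or.inl ⟨rfl, Or.inl ?_⟩))⟩
        · simp only
          omega
        · simp only
          omega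
    · by_cases ha : a + r = s
      · refine ⟨Sum.inl 0, Or.inl rfl, _, hy, tx_0 (Or.inr ?_)⟩
        simp only
        omega
      · refine ⟨Sum.inr (⟨a + r, by omega⟩, ⟨x.2.val, by omega⟩),
          Or.inr ⟨_, rfl, Or.inl ⟨rfl, Or.inr ?_⟩⟩, _, hy,
          tx_g ((grid_adj _ _).2 (Or.inl ⟨rfl, Or.inr ?_⟩))⟩
        · simp only
          omega
        · simp only
          omega
  · have h1 := x.1.2
    have h2 := x.2.2
    have hy : (Sum.inr ((⟨a + x.1.val, by omega⟩, ⟨x.2.val, by omega⟩) : Fin s × Fin s) :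
        Fin 2 ⊕ (Fin s × Fin s)) ∈ nu r a s (Sum.inr x) := ⟨_, rfl, rfl, rfl⟩
    rcases hx with hx | hx
    · refine ⟨Sum.inl 1, Or.inl rfl, _, hy, tx_1 (Or.inl ?_)⟩
      simp only
      omega
    · refine ⟨Sum.inr (⟨a + x.1.val, by omega⟩, ⟨r, by omega⟩),
        Or.inr ⟨_, rfl, Or.inr ⟨rfl, ?_, ?_, ?_⟩⟩, _, hy,
        tx_g ((grid_adj _ _).2 (Or.inr ⟨rfl, Or.inr ?_⟩))⟩
      · simp only
        omega
      · simp only
        omega
      · simp only
        omega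
      · simp only
        omega
  · have hx1 := x.1.2
    have hx2 := x.2.2
    have hy1 := y.1.2
    have hy2 := y.2.2
    have hx : (Sum.inr ((⟨a + x.1.val, by omega⟩, ⟨x.2.val, by omega⟩) : Fin s × Fin s) :
        Fin 2 ⊕ (Fin s × Fin s)) ∈ nu r a s (Sum.inr x) := ⟨_, rfl, rfl, rfl⟩
    have hy : (Sum.inr ((⟨a + y.1.val, by omega⟩, ⟨y.2.val, by omega⟩) : Fin s × Fin s) :
        Fin 2 ⊕ (Fin s × Fin s)) ∈ nu r a s (Sum.inr y) := ⟨_, rfl, rfl, rfl⟩
    refine ⟨_, hx, _, hy, tx_g ((grid_adj _ _).2 ?_)⟩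
    rcases (grid_adj _ _).1 hxy with ⟨e, h⟩ | ⟨e, h⟩
    · have e' := congrArg Fin.val e
      refine Or.inl ⟨Fin.ext ?_, ?_⟩
      · simp only
        omega
      · simp only
        omega
    · have e' := congrArg Fin.val e
      refine Or.inr ⟨Fin.ext ?_, ?_⟩
      · simp only
        omega
      · simp only
        omega

/-- the model, with any vertex of the set of `p` as the root -/
theorem root_nu {r a s : ℕ} (has : a + r ≤ s) (hrs : r < s) {k : Fin 2 ⊕ (Fin s × Fin s)}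
    (hk : k ∈ nu r a s (Sum.inl 0)) : RMinor (TX r) (Sum.inl 0) (TX s) k := by
  refine ⟨nu r a s, nu_conn has hrs, fun b c => nu_disj b c, fun b c hbc => ?_, hk⟩
  obtain ⟨-, h | h⟩ := hbc
  · exact nu_edge has hrs h
  · obtain ⟨x, hx, y, hy, hxy⟩ := nu_edge (a := a) has hrs h
    exact ⟨y, hy, x, hx, hxy.symm⟩

/-- exchange `p` and `q` -/
def tr {s : ℕ} : Fin 2 ⊕ (Fin s × Fin s) → Fin 2 ⊕ (Fin s × Fin s)
  | Sum.inl p => Sum.inl (Fin.rev p)
  | Sum.inr x => Sum.inr (x.2, x.1)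

theorem tr_tr {s : ℕ} (v : Fin 2 ⊕ (Fin s × Fin s)) : tr (tr v) = v := by
  rcases v with p | x
  · simp [tr]
  · rfl

theorem tr_adj {s : ℕ} {b c : Fin 2 ⊕ (Fin s × Fin s)}
    (h : (∃ x : Fin s × Fin s, (x.1.val = 0 ∨ x.1.val + 1 = s) ∧ b = Sum.inl 0 ∧ c = Sum.inr x) ∨
    (∃ x : Fin s × Fin s, (x.2.val = 0 ∨ x.2.val + 1 = s) ∧ b = Sum.inl 1 ∧ c = Sum.inr x) ∨
    ∃ x y : Fin s × Fin s, (grid s).Adj x y ∧ b = Sum.inr x ∧ c = Sum.inr y) :
    (TX s).Adj (tr b) (tr c) := by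
  rcases h with ⟨x, hx, rfl, rfl⟩ | ⟨x, hx, rfl, rfl⟩ | ⟨x, y, hxy, rfl, rfl⟩
  · exact tx_1 (x := (x.2, x.1)) hx
  · exact tx_0 (x := (x.2, x.1)) hx
  · refine tx_g ((grid_adj _ _).2 ?_)
    rcases (grid_adj _ _).1 hxy with ⟨e, h⟩ | ⟨e, h⟩
    · exact Or.inr ⟨e, h⟩
    · exact Or.inl ⟨e, h⟩

theorem rminor_tr (s : ℕ) : RMinor (TX s) (Sum.inl 0) (TX s) (Sum.inl 1) := by
  refine ⟨fun b => {tr b}, fun b => H427.conn_single' _ _, fun b c hbc => ?_, fun b c hbc => ?_,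
    rfl⟩
  · rw [Set.disjoint_singleton]
    intro h
    exact hbc (by rw [← tr_tr b, ← tr_tr c, h])
  · refine ⟨tr b, rfl, tr c, rfl, ?_⟩
    obtain ⟨-, h | h⟩ := hbc
    · exact tr_adj h
    · exact (tr_adj h).symm

/-- `(TX r, p)` is a rooted minor of `TX (2 r + 1)` with any root -/
theorem root_any (r : ℕ) (k : Fin 2 ⊕ (Fin (2 * r + 1) × Fin (2 * r + 1))) :
    RMinor (TX r) (Sum.inl 0) (TX (2 * r + 1)) k := by
  rcases k with p | x
  · have h0 : RMinor (TX r) (Sum.inl 0) (TX (2 * r + 1)) (Sum.inl 0) :=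
      root_nu (a := 0) (by omega) (by omega) (Or.inl rfl)
    have hm : ∀ p : Fin 2, p = 0 ∨ p = 1 := by decide
    rcases hm p with rfl | rfl
    · exact h0
    · exact H427.rminor_trans' h0 (rminor_tr _)
  · by_cases hx : x.1.val ≤ r
    · exact root_nu (a := r + 1) (by omega) (by omega)
        (Or.inr ⟨x, rfl, Or.inl ⟨rfl, Or.inl (by omega)⟩⟩)
    · exact root_nu (a := 0) (by omega) (by omega)
        (Or.inr ⟨x, rfl, Or.inl ⟨rfl, Or.inr (by omega)⟩⟩)

end Vale.Agent.P235.XC.H838
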