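import Vale.Agent.P235.K5.H56.OneF
import Vale.Agent.P235.XC.H838.Pre

/-!
P235, line XC (helper838): the excluded minors with bounded `c₁` are closed under gluing, at any
vertex, rooted minors of the graphs `(TX r, p)`: connected graphs drawn with one crossing, the root
an end of one of the two crossing edges.
-/

set_option autoImplicit false
set_option linter.all false

namespace Vale.Agent.P235.XC.H838

open SimpleGraph hiding Free
open Vale.Agent.P235 Vale.Agent.P235.H134 Vale.Agent.P235.H141 Vale.Agent.P235.H56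
open Vale.Agent.P235.K5 Vale.Agent.P235.K5.H56
open Vale.Agent.P235.H606 (Free)
open Vale.Agent.P235.H750 (RMinor RFree)

/-- `(TX r, p)` is good at its root -/
theorem rfreeTX (hX : ∀ r, ∃ K : ℝ, Free (TX r) K) (r : ℕ) : RFree (TX r) (Sum.inl 0) := by
  obtain ⟨K, hK⟩ := hX (2 * r + 1)
  refine fun _ => ⟨K, fun V _ G b hG _ hno => hK V G hG fun hm => ?_⟩
  haveI : Nonempty (Fin 2 ⊕ (Fin (2 * r + 1) × Fin (2 * r + 1))) := ⟨Sum.inl 0⟩
  obtain ⟨k, hk⟩ := exists_root hG hm b
  exact hno (H427.rminor_trans' (root_any r k) hk)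

/-- The excluded minors with bounded `c₁` are closed under gluing rooted minors of `(TX r, p)` at any
vertex. -/
theorem glueX (hX : ∀ r, ∃ K : ℝ, Free (TX r) K) {W : Type} [Finite W] {H : SimpleGraph W}
    {S T : Set W} {v : W} (hS : v ∈ S) (hT : v ∈ T) (hST : S ∪ T = Set.univ)
    (hST' : S ∩ T = {v}) (hadj : ∀ a b, a ∉ T → b ∉ S → ¬ H.Adj a b)
    (hSc : (H.induce S).Connected)
    (hR : ∃ r, RMinor (H.induce T) ⟨v, hT⟩ (TX r) (Sum.inl 0))
    (hRS : ∃ C : ℝ, Free (H.induce S) C) : ∃ C : ℝ, Free H C := by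
  obtain ⟨r, hr⟩ := hR
  exact oneF_of H427.nestStmt H12.allStar H406.mono H427.OneB2.oneB2 hS hT hST hST' hadj hSc
    (H427.rfree_mono hr (rfreeTX hX r)) hRS

/-- the finite connected graphs built from a `KPiece` or a minor of some `TX r` by gluing, again and
again, at any vertex, a connected rooted minor of some `(TX r, p)` -/
inductive XTree : ∀ {W : Type}, SimpleGraph W → Prop
  | core {W : Type} {H : SimpleGraph W} : Finite W → H.Connected →
      (KPiece H ∨ ∃ r, IsMinor H (TX r)) → XTree H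
  | glue {W : Type} {H : SimpleGraph W} {S T : Set W} {v : W} (hT : v ∈ T) : S ∪ T = Set.univ →
      S ∩ T = {v} → (∀ a b, a ∉ T → b ∉ S → ¬ H.Adj a b) → XTree (H.induce S) → Finite T →
      (H.induce T).Connected → (∃ r, RMinor (H.induce T) ⟨v, hT⟩ (TX r) (Sum.inl 0)) → XTree H

theorem xTree_free (hK : K5FreeStmt) (hX : ∀ r, ∃ K : ℝ, Free (TX r) K) {W : Type}
    {H : SimpleGraph W} (h : XTree H) : Finite W ∧ H.Connected ∧ ∃ C : ℝ, Free H C := by
  induction h with
  | @core W H hW hc hcore =>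
    refine ⟨hW, hc, ?_⟩
    rcases hcore with h | ⟨r, hr⟩
    · exact kPiece_free hK h
    · obtain ⟨K, hK'⟩ := hX r
      exact ⟨K, fun V _ G hG hno => hK' V G hG fun h => hno (minor_trans hr h)⟩
  | @glue W H S T v hvT hST hST' hadj _ hTf hTc hR ihS =>
    obtain ⟨hSf, hSc, hSr⟩ := ihS
    have hvS : v ∈ S := (hST'.symm ▸ Set.mem_singleton v : v ∈ S ∩ T).1
    have hW : Finite W := by
      rw [← Set.finite_univ_iff, ← hST]
      exact (Set.toFinite S).union (Set.toFinite T)
    exact ⟨hW, H427.conn_glue hvS hvT hST hSc hTc,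
      glueX hX hvS hvT hST hST' hadj hSc hR hSr⟩

/-- a `KPiece` or a minor of an `XTree` -/
def YPiece {W : Type} (H : SimpleGraph W) : Prop :=
  KPiece H ∨ ∃ (X : Type) (T : SimpleGraph X), XTree T ∧ IsMinor H T

theorem yPiece_free (hK : K5FreeStmt) (hX : ∀ r, ∃ K : ℝ, Free (TX r) K) {W : Type}
    {H : SimpleGraph W} (h : YPiece H) : ∃ C : ℝ, Free H C := by
  rcases h with h | ⟨X, T, hT, hm⟩
  · exact kPiece_free hK h
  · obtain ⟨-, -, C, hC⟩ := xTree_free hK hX hT
    exact ⟨C, fun V _ G hG hno => hC V G hG fun h => hno (minor_trans hm h)⟩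

theorem allY (hK5 : K5FreeStmt) (hX : ∀ r, ∃ K : ℝ, Free (TX r) K) : ∃ C : ℝ, 1 ≤ C ∧
    (∀ (W : Type) [Finite W] (H : SimpleGraph W),
      (∀ c : H.ConnectedComponent, YPiece (H.induce c.supp)) →
      ∃ K : ℝ, (∀ (V : Type) [Finite V] (G : SimpleGraph V), G.Connected → ¬ IsMinor H G →
        DistortionLE G K) ∧
      ∀ (t : ℕ) (V : Type) [Finite V] (G : SimpleGraph V), G.Connected →
        (∃ S : Set V, S.ncard ≤ t ∧ ∀ u ∉ S, ¬ IsMinor H (G.induce (compSet G S u))) →
          DistortionLE G (C * (K + Real.log (t + 2)))) ∧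
    (∀ F : (V : Type) → SimpleGraph V → Prop, MinorClosed F →
      ((∃ (W : Type) (_ : Finite W) (H : SimpleGraph W), H.Connected ∧ YPiece H ∧ ¬ F W H) ∨
      (∃ (W : Type) (_ : Finite W) (H : SimpleGraph W),
        (∀ c : H.ConnectedComponent, YPiece (H.induce c.supp)) ∧
        ∀ (V : Type) [Finite V] (G : SimpleGraph V), F V G → ¬ IsMinor H G)) →
      ∃ K : ℝ, ∀ (V : Type) [Finite V] (G : SimpleGraph V), G.Connected → F V G →
        DistortionLE G K) := by
  obtain ⟨A, hA1, -, -, -, -, -, h6, h7⟩ := main_of H830.sPrime H638.monoQ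
    (P := fun _ H => YPiece H) fun W _ H h => yPiece_free hK5 hX h
  exact ⟨A, hA1, h6, h7⟩

end Vale.Agent.P235.XC.H838
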