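import Vale.Agent.P235.XC.H838.Glue
import Vale.Agent.P235.XC.H281.Closed

/-!
P235, line XC (helper838): `Glue.lean` without hypotheses.
-/

set_option autoImplicit false
set_option linter.all false

namespace Vale.Agent.P235.XC.H838

open SimpleGraph hiding Free
open Vale.Agent.P235 Vale.Agent.P235.H134 Vale.Agent.P235.H141 Vale.Agent.P235.H56
open Vale.Agent.P235.K5 Vale.Agent.P235.K5.H56
open Vale.Agent.P235.H606 (Free)
open Vale.Agent.P235.H750 (RMinor RFree)

theorem glueXc {W : Type} [Finite W] {H : SimpleGraph W}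
    {S T : Set W} {v : W} (hS : v ∈ S) (hT : v ∈ T) (hST : S ∪ T = Set.univ)
    (hST' : S ∩ T = {v}) (hadj : ∀ a b, a ∉ T → b ∉ S → ¬ H.Adj a b)
    (hSc : (H.induce S).Connected)
    (hR : ∃ r, RMinor (H.induce T) ⟨v, hT⟩ (TX r) (Sum.inl 0))
    (hRS : ∃ C : ℝ, Free (H.induce S) C) : ∃ C : ℝ, Free H C :=
  glueX H281.x8 hS hT hST hST' hadj hSc hR hRS

theorem allYc : ∃ C : ℝ, 1 ≤ C ∧
    (∀ (W : Type) [Finite W] (H : SimpleGraph W),
      (∀ c : H.ConnectedComponent, YPiece (H.induce c.supp)) →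
      ∃ K : ℝ, (∀ (V : Type) [Finite V] (G : SimpleGraph V), G.Connected → ¬ IsMinor H G →
        DistortionLE G K) ∧
      ∀ (t : ℕ) (V : Type) [Finite V] (G : SimpleGraph V), G.Connected →
        (∃ S : Set V, S.ncard ≤ t ∧ ∀ u ∉ S, ¬ IsMinor H (G.induce (compSet G S u))) →
          DistortionLE G (C * (K + Real.log (t + 2)))) ∧
    (∀ F : (V : Type) → SimpleGraph V → Prop, MinorClosed F →
      ((∃ (W : Type) (_ : Finite W) (H : SimpleGraph W), H.Connected ∧ YPiece H ∧ ¬ F W H) ∨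
      (∃ (W : Type) (_ : Finite W) (H : SimpleGraph W),
        (∀ c : H.ConnectedComponent, YPiece (H.induce c.supp)) ∧
        ∀ (V : Type) [Finite V] (G : SimpleGraph V), F V G → ¬ IsMinor H G)) →
      ∃ K : ℝ, ∀ (V : Type) [Finite V] (G : SimpleGraph V), G.Connected → F V G →
        DistortionLE G K) := allY K5.H56.k5free H281.x8

end Vale.Agent.P235.XC.H838
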